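import Vale.Agent.P235.K5.GX.Defs
import Vale.Agent.P235.K5.SX.Asm
import Vale.Agent.P235.K5.GX.H193.Gen
import Vale.Agent.P235.K5.GX.H193.Mix

set_option autoImplicit false
set_option linter.all false

/-!
# Line GX, row [G5]: the assembly
-/

namespace Vale.Agent.P235.K5.GX.H193

open SimpleGraph Vale.Agent.P235 Vale.Agent.P235.H134 Vale.Agent.P235.H56 Vale.Agent.P235.K5
open Vale.Agent.P235.K5.SX

/-- the fine tree with marks, for some bound of the adhesions -/
def RefMStmt : Prop :=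
  ∀ w j : ℕ, ∃ kk : ℕ, 1 ≤ kk ∧ ∀ (V : Type) [Finite V] (H : SimpleGraph V) (n : ℕ)
    (B : ℕ → Set V) (T : ℕ → Prop), Glued 3 H n B →
    (∀ t < n, T t → TreewidthLE (H.induce (B t)) w) → ∀ M : ℕ → Set V,
    (∀ t < n, ¬ T t → Adh B t ⊆ M t ∧ M t ⊆ B t ∧ (M t).ncard ≤ j) →
    ∃ (H' : SimpleGraph V) (m : ℕ) (C : ℕ → Set V) (phi : ℕ → ℕ) (big : ℕ → Prop),
      RefM kk H n B T M H' m C phi big

theorem refM_of (h5 : S5Stmt) (h4 : G4Stmt) : RefMStmt := by
  intro w j
  refine ⟨max 3 w + j, by omega, ?_⟩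
  intro V _ H n B T hG hT M hM
  obtain ⟨H₁, m₁, C₁, phi₁, hR⟩ := h5 w V H n B T hG hT
  exact h4 w j V H n B T H₁ m₁ C₁ phi₁ hG hR M hM

/-- the regions of the fine tree with marks -/
theorem regionM {kk n : ℕ} {V : Type} {H : SimpleGraph V} {B : ℕ → Set V} {T : ℕ → Prop}
    {M : ℕ → Set V} {H' : SimpleGraph V} {m : ℕ} {C : ℕ → Set V} {phi : ℕ → ℕ} {big : ℕ → Prop}
    (h : RefM kk H n B T M H' m C phi big) (Y : BTree m C) :
    Region m C Y (fun s => ¬ big s) (fun s => Adh B (phi s)) where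
  one := h.one
  step := by
    intro s hs hT h0
    by_cases hsub : Adh C s ⊆ Adh B (phi s)
    · exact Or.inl hsub
    · right
      rw [Set.not_subset] at hsub
      obtain ⟨u, hu, hu'⟩ := hsub
      have h1 : u ∈ B (phi s) := h.sub s hs hu.1
      have h2 : u ∉ Bef B (phi s) := fun hc => hu' ⟨h1, hc⟩
      have h3 : Y.par s < s := Y.par_lt s h0 hs
      have h4 : u ∈ B (phi (Y.par s)) := h.sub _ (h3.trans hs) (Y.adh s h0 hs hu)
      have h5 : phi (Y.par s) ≤ phi s := h.mono _ _ h3.le hs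
      have h6 : phi (Y.par s) = phi s := by
        rcases h5.lt_or_eq with h7 | h7
        · exact absurd ⟨_, h7, h4⟩ h2
        · exact h7
      refine ⟨fun hbig => ?_, by rw [h6]⟩
      have h8 := (h.last _ (h3.trans hs) hbig).2 s hs h6.symm
      omega

/-- `A` and the marks -/
theorem exists_AM (h2 : S2Stmt) (h3 : G3Stmt) {c : ℝ} (hc : 0 < c) (hc1 : c ≤ 1) {η : ℝ}
    (hη : 0 < η) (hη1 : η ≤ 1 / 2048) {j : ℕ}
    {V : Type} [Finite V] {H : SimpleGraph V} {n : ℕ} {B : ℕ → Set V} {T : ℕ → Prop}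
    (h : Glued 3 H n B)
    (hB : ∀ t < n, T t ∨ QC c j (B t) (H.induce (B t)) {x | (x : V) ∈ Adh B t})
    {d : V → V → ℝ} (hd : IsMet d) (hG : Gen H d) :
    ∃ (A : V → V → ℝ) (M : ℕ → Set V), IsL1 A ∧ (∀ x y, A x y ≤ d x y) ∧
      (∀ t < n, ¬ T t → Adh B t ⊆ M t ∧ M t ⊆ B t ∧ (M t).ncard ≤ j + 3) ∧
      (∀ t < n, T t → ∀ x ∈ B t, ∀ y ∈ B t,
        Tri3 (c * η / 12288) True d A (Adh B t) x y) ∧
      ∀ t < n, ¬ T t → ∀ x ∈ B t, ∀ y ∈ B t,
        Tri4 (c * η / 12288) η d A (Adh B t) (M t) x y := by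
  classical
  set k : ℝ := c * η / 12288 with hkdef
  have hcη : c * η ≤ 1 / 2048 := by nlinarith
  have hk : 0 < k := by positivity
  have hk1 : k ≤ 1 / 1024 := by rw [hkdef]; linarith
  obtain ⟨A, hA0, hA1, hA2⟩ := exists_A_prop h hd hG
    (fun t F => (T t → ∀ x ∈ B t, ∀ y ∈ B t, Tri3 k True d F (Adh B t) x y) ∧
      (¬ T t → ∃ M : Set V, Adh B t ⊆ M ∧ M ⊆ B t ∧ M.ncard ≤ j + 3 ∧
        ∀ x ∈ B t, ∀ y ∈ B t, Tri4 k η d F (Adh B t) M x y))
    (by
      intro t ht F F' hF hQ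
      have hR : Adh B t ⊆ B t := fun v hv => hv.1
      refine ⟨fun hT x hx y hy => ?_, fun hT => ?_⟩
      · rcases hQ.1 hT x hx y hy with h5 | ⟨r, hr, s, hs, h5⟩ | h5
        · left
          rw [← hF x hx y hy]
          exact h5
        · right; left
          refine ⟨r, hr, s, hs, ?_⟩
          rw [← hF x hx y hy, ← hF r (hR hr) s (hR hs)]
          exact h5
        · exact Or.inr (Or.inr h5)
      · obtain ⟨M, m1, m2, m3, m4⟩ := hQ.2 hT
        refine ⟨M, m1, m2, m3, fun x hx y hy => ?_⟩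
        rcases m4 x hx y hy with h5 | ⟨r, hr, s, hs, h5⟩ | h5
        · left
          rw [← hF x hx y hy]
          exact h5
        · right; left
          refine ⟨r, hr, s, hs, ?_⟩
          rw [← hF x hx y hy, ← hF r (hR hr) s (hR hs)]
          exact h5
        · exact Or.inr (Or.inr h5))
    (by
      intro t ht ρ hρ hρd
      have hsub : Adh B t ⊆ B t := fun v hv => hv.1
      have hd' : IsMet fun x y : B t => d x y :=
        ⟨fun x => hd.self _, fun x y hxy => hd.pos _ _ fun e => hxy (Subtype.ext e),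
          fun x y => hd.symm _ _, fun x y z => hd.tri _ _ _⟩
      have hG' : Gen (H.induce (B t)) fun x y : B t => d x y := h.gen_bag hd hG ht
      have hcard : ({x | (x : V) ∈ Adh B t} : Set (B t)).ncard ≤ 3 := by
        rw [H500.ncard_sub hsub]; exact h.card t ht
      by_cases hT : T t
      · obtain ⟨F, g1, g2, g3, g4⟩ := h2 (B t) (fun x y : B t => d x y) hd'
          {x | (x : V) ∈ Adh B t} hcard (fun x y : B t => ρ x y) (H500.isL1_restrict hρ _)
          (fun u hu v hv => hρd u hu v hv)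
        obtain ⟨F', e1, e2⟩ := extendL1 g1
        refine ⟨F', e1, ?_, ?_, fun _ => ?_, fun hT' => absurd hT hT'⟩
        · intro x hx y hy
          exact (e2 ⟨x, hsub hx⟩ ⟨y, hsub hy⟩).trans (g2 _ hx _ hy)
        · intro x hx y hy
          rw [e2 ⟨x, hx⟩ ⟨y, hy⟩]
          exact g3 _ _
        · intro x hx y hy
          have hdn := hd.nonneg x y
          rcases g4 ⟨x, hx⟩ ⟨y, hy⟩ with h5 | ⟨r, hr, s, hs, h5⟩ | ⟨_, h5⟩
          · left
            rw [e2 ⟨x, hx⟩ ⟨y, hy⟩]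
            have h6 : k * d x y ≤ 1 / 1024 * d x y :=
              mul_le_mul_of_nonneg_right hk1 hdn
            exact h6.trans h5
          · right; left
            refine ⟨r, hr, s, hs, ?_⟩
            rw [e2 ⟨x, hx⟩ ⟨y, hy⟩, e2 r s]
            have h6 : 0 ≤ d x r + d y s := add_nonneg (hd.nonneg _ _) (hd.nonneg _ _)
            have h7 : k * (d x r + d y s) ≤ 1 / 1024 * (d x r + d y s) :=
              mul_le_mul_of_nonneg_right hk1 h6
            have h8 : F r s + 1 / 1024 * (d x r + d y s) ≤ F ⟨x, hx⟩ ⟨y, hy⟩ := h5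
            linarith
          · right; right
            refine ⟨trivial, fun r hr s hs => ?_⟩
            have h8 : 1 / 1024 * d x y ≤ d x r + d y s :=
              h5 ⟨r, hsub hr⟩ hr ⟨s, hsub hs⟩ hs
            have h6 : k * d x y ≤ 1 / 1024 * d x y :=
              mul_le_mul_of_nonneg_right hk1 hdn
            exact h6.trans h8
      · obtain ⟨F, M, g1, g2, g3, m1, m2, g4⟩ := h3 j c η hc hc1 hη hη1 (B t)
          (H.induce (B t)) {x | (x : V) ∈ Adh B t} ((hB t ht).resolve_left hT) hcard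
          (fun u hu v hv huv => h.clique t ht u hu v hv fun e => huv (Subtype.ext e))
          (fun x y : B t => d x y) hd' hG' (fun x y : B t => ρ x y)
          (H500.isL1_restrict hρ _) (fun u hu v hv => hρd u hu v hv)
        obtain ⟨F', e1, e2⟩ := extendL1 g1
        refine ⟨F', e1, ?_, ?_, fun hT' => absurd hT' hT, fun _ => ?_⟩
        · intro x hx y hy
          exact (e2 ⟨x, hsub hx⟩ ⟨y, hsub hy⟩).trans (g2 _ hx _ hy)
        · intro x hx y hy
          rw [e2 ⟨x, hx⟩ ⟨y, hy⟩]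
          exact g3 _ _
        · refine ⟨Subtype.val '' M, ?_, ?_, ?_, ?_⟩
          · intro r hr
            exact ⟨⟨r, hsub hr⟩, m1 hr, rfl⟩
          · rintro _ ⟨p, _, rfl⟩
            exact p.2
          · exact (Set.ncard_image_le (Set.toFinite _)).trans m2
          · intro x hx y hy
            rcases g4 ⟨x, hx⟩ ⟨y, hy⟩ with h5 | ⟨r, hr, s, hs, h5⟩ | ⟨h5, p, hp, q, hq, h6⟩
            · left
              rw [e2 ⟨x, hx⟩ ⟨y, hy⟩]
              exact h5
            · right; left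
              refine ⟨r, hr, s, hs, ?_⟩
              rw [e2 ⟨x, hx⟩ ⟨y, hy⟩, e2 r s]
              exact h5
            · right; right
              exact ⟨fun r hr s hs => h5 ⟨r, hsub hr⟩ hr ⟨s, hsub hs⟩ hs,
                p, ⟨p, hp, rfl⟩, q, ⟨q, hq, rfl⟩, h6⟩)
  have hM : ∀ t, ∃ M : Set V, t < n → ¬ T t → Adh B t ⊆ M ∧ M ⊆ B t ∧ M.ncard ≤ j + 3 ∧
      ∀ x ∈ B t, ∀ y ∈ B t, Tri4 k η d A (Adh B t) M x y := by
    intro t
    by_cases ht : t < n ∧ ¬ T t
    · obtain ⟨M, hM⟩ := (hA2 t ht.1).2 ht.2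
      exact ⟨M, fun _ _ => hM⟩
    · exact ⟨∅, fun h1 h2 => absurd ⟨h1, h2⟩ ht⟩
  choose M hM using hM
  exact ⟨A, M, hA0, hA1, fun t ht hT => ⟨(hM t ht hT).1, (hM t ht hT).2.1, (hM t ht hT).2.2.1⟩,
    fun t ht hT => (hA2 t ht).1 hT, fun t ht hT => (hM t ht hT).2.2.2⟩

/-- the far pairs near two marks are captured by `N` -/
theorem capM {V : Type} {d N : V → V → ℝ} (hd : IsMet d) (hN : IsL1 N)
    (hN1 : ∀ x y, N x y ≤ d x y) {cN η k : ℝ} (hcN : 0 < cN) (hcN1 : cN ≤ 1)
    (hη : η = cN / 4096) (hk0 : 0 ≤ k) (hk : k ≤ 1 / 4096) {R : Set V} {x y p q : V}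
    (hfar : ∀ r ∈ R, ∀ s ∈ R, 1 / 1024 * d x y ≤ d x r + d y s)
    (hpq : d x p + d y q ≤ η * d x y)
    (hcap : ∀ m : ℝ, m ≤ d p q → (∀ r ∈ R, ∀ r' ∈ R, m ≤ d p r + d q r') → cN * m ≤ N p q) :
    cN * (k * d x y) ≤ N x y := by
  have hd0 : 0 ≤ d x y := hd.nonneg x y
  have hη0 : 0 < η := by rw [hη]; positivity
  have hη1 : η ≤ 1 / 4096 := by rw [hη]; linarith
  have h1 := hcap ((1 / 1024 - η) * d x y) (by
      have e1 := hd.tri x p y
      have e2 := hd.tri p q y
      have e3 := hd.symm q y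
      nlinarith) (by
      intro r hr r' hr'
      have e1 := hfar r hr r' hr'
      have e2 := hd.tri x p r
      have e3 := hd.tri y q r'
      nlinarith)
  have h2 : N p q ≤ d x p + N x y + d y q := by
    have e1 := hN.tri p x q
    have e2 := hN.tri x y q
    have e3 := hN1 x p
    have e4 := hN1 y q
    have e5 := hN.symm p x
    linarith
  have h3 : cN * ((1 / 1024 - η) * d x y) ≤ N x y + η * d x y := by linarith
  have h4 : η * d x y = cN * (1 / 4096 * d x y) := by rw [hη]; ring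
  have h5 : cN * (η * d x y) ≤ cN * (1 / 4096 * d x y) :=
    mul_le_mul_of_nonneg_left (mul_le_mul_of_nonneg_right hη1 hd0) hcN.le
  have h6 : cN * (k * d x y) ≤ cN * (1 / 4096 * d x y) :=
    mul_le_mul_of_nonneg_left (mul_le_mul_of_nonneg_right hk hd0) hcN.le
  have h7 : 0 ≤ cN * d x y := mul_nonneg hcN.le hd0
  nlinarith

/-- **[G5] the embedding** -/
theorem embM (h2 : S2Stmt) (h3 : G3Stmt) (hN : NStmt) (hR : RefMStmt) (w j : ℕ) (c : ℝ)
    (hc : 0 < c) (hc1 : c ≤ 1) :
    ∃ D : ℝ, 0 < D ∧ D ≤ 1 ∧ ∀ (V : Type) [Finite V] (H : SimpleGraph V) (n : ℕ) (B : ℕ → Set V)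
      (T : ℕ → Prop), Glued 3 H n B →
      (∀ t < n, T t → TreewidthLE (H.induce (B t)) w) →
      (∀ t < n, T t ∨ QC c j (B t) (H.induce (B t)) {x | (x : V) ∈ Adh B t}) →
      ∀ d : V → V → ℝ, IsMet d → Gen H d → R2.H598.Emb d D := by
  obtain ⟨kk, hkk, HR⟩ := hR w (j + 3)
  obtain ⟨cN, C2, hcN, hcN1, hC2, HN⟩ := hN kk hkk
  set η : ℝ := cN / 4096 with hηdef
  have hη : 0 < η := by positivity
  have hη1 : η ≤ 1 / 4096 := by rw [hηdef]; linarith
  set k : ℝ := c * η / 12288 with hkdef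
  have hcη : c * η ≤ 1 / 4096 := by nlinarith
  have hk : 0 < k := by positivity
  have hk4096 : k ≤ 1 / 4096 := by rw [hkdef]; linarith
  have hk1 : k ≤ 1 := by linarith
  set c0 : ℝ := min (k / 2) (k / 4 * (cN * k)) with hc0def
  have hc0 : 0 < c0 := lt_min (by positivity) (by positivity)
  have hc01 : c0 ≤ 1 := (min_le_left _ _).trans (by linarith)
  refine ⟨min (c0 / 2) (c0 / (8 * C2)) / 2, ?_, ?_, ?_⟩
  · have : 0 < min (c0 / 2) (c0 / (8 * C2)) := lt_min (by positivity) (by positivity)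
    linarith
  · have : min (c0 / 2) (c0 / (8 * C2)) ≤ c0 / 2 := min_le_left _ _
    linarith
  intro V _ H n B T hG hTw hB d hd hgen
  obtain ⟨A, M, hA0, hA1, hM, hA2, hA3⟩ := exists_AM h2 h3 hc hc1 hη (by linarith) hG hB hd hgen
  obtain ⟨H', m, C, phi, big, hF⟩ := HR V H n B T hG hTw M hM
  obtain ⟨Y⟩ := hF.glued.exists_tree
  have hgen' : Gen H' d := gen_le hF.le hgen
  obtain ⟨N, hN0, hN1, hN2, hN3⟩ := HN V H' m C hF.glued Y (fun s => ¬ big s)
    (fun s => Adh B (phi s)) hF.new (regionM hF Y) d hd hgen'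
  have hmix := mixG hG hF.glued hF.le phi hF.mono hF.lt hF.cov hd hA0 hN0 hN1 hk hk1 hcN
    (by
      intro s hs x hx y hy
      have ht := hF.lt s hs
      have hxB := hF.sub s hs hx
      have hyB := hF.sub s hs hy
      have hd0 := hd.nonneg x y
      by_cases hT : T (phi s)
      · have hns : ¬ big s := fun hb => (hF.last s hs hb).1 hT
        rcases hA2 _ ht hT x hxB y hyB with h5 | h5 | ⟨_, h5⟩
        · exact Or.inl h5
        · exact Or.inr (Or.inl h5)
        · right; right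
          refine hN3 s hs hns x hx y hy (k * d x y) ?_ h5
          nlinarith
      · rcases hA3 _ ht hT x hxB y hyB with h5 | h5 | ⟨h5, p, hp, q, hq, h6⟩
        · exact Or.inl h5
        · exact Or.inr (Or.inl h5)
        · right; right
          by_cases hpA : p ∈ Adh B (phi s)
          · by_cases hqA : q ∈ Adh B (phi s)
            · have h7 := h5 p hpA q hqA
              have h8 : η * d x y ≤ 1 / 4096 * d x y :=
                mul_le_mul_of_nonneg_right hη1 hd0
              have h9 : d x y = 0 := by linarith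
              have h10 := hN0.nonneg x y
              rw [h9]
              simpa using h10
            · obtain ⟨s', hs', hb, hphi, hq', hp'⟩ := hF.mark _ ht hT q hq p hp hqA
              refine capM hd hN0 hN1 hcN hcN1 hηdef hk.le hk4096 h5 h6 ?_
              intro m' hm1 hm2
              refine hN3 s' hs' hb p hp' q hq' m' hm1 ?_
              intro r hr r' hr'
              rw [hphi] at hr hr'
              exact hm2 r hr r' hr'
          · obtain ⟨s', hs', hb, hphi, hp', hq'⟩ := hF.mark _ ht hT p hp q hq hpA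
            refine capM hd hN0 hN1 hcN hcN1 hηdef hk.le hk4096 h5 h6 ?_
            intro m' hm1 hm2
            refine hN3 s' hs' hb p hp' q hq' m' hm1 ?_
            intro r hr r' hr'
            rw [hphi] at hr hr'
            exact hm2 r hr r' hr')
  have hk4 : 0 ≤ 1 - k / 4 := by linarith
  have hk5 : 0 ≤ k / 4 := by linarith
  have hFA : IsL1 fun x y => (1 - k / 4) * A x y + k / 4 * N x y :=
    (hA0.smul hk4).add (hN0.smul hk5)
  have hFA1 : ∀ x y, (1 - k / 4) * A x y + k / 4 * N x y ≤ d x y := by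
    intro x y
    have g1 := mul_le_mul_of_nonneg_left (hA1 x y) hk4
    have g2 := mul_le_mul_of_nonneg_left (hN1 x y) hk5
    linarith
  have hcr := H12.cross hF.glued Y hd hc0 hc01 hC2 hFA hN0 hFA1 hmix hN2
  refine ⟨fun x y => 1 / 2 * (((1 - k / 4) * A x y + k / 4 * N x y) + N x y),
    (hFA.add hN0).smul (by norm_num), ?_, ?_⟩
  · intro x y
    have g1 := hcr x y
    show _ ≤ 1 / 2 * (((1 - k / 4) * A x y + k / 4 * N x y) + N x y)
    linarith
  · intro x y
    have g1 := hFA1 x y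
    have g2 := hN1 x y
    show 1 / 2 * (((1 - k / 4) * A x y + k / 4 * N x y) + N x y) ≤ _
    linarith

/-- **[G5]** the theorem of the line GX, from its rows -/
theorem finX (h2 : S2Stmt) (h3 : G3Stmt) (hN : NStmt) (hR : RefMStmt) : FinX := by
  intro w m c hc hc1
  obtain ⟨D, hD, hD1, HD⟩ := embM h2 h3 hN hR w m c hc hc1
  refine ⟨1 / D, (one_le_div hD).2 hD1, ?_⟩
  intro V _ G H hle hconn hS ℓ hℓ
  obtain ⟨n, B, hG, hB⟩ := hS
  have hd := pathDist_isMet hconn hℓ
  have hgenG : Gen G (pathDist G ℓ) := by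
    intro f hf x y
    exact pathDist_gen hconn (fun u v huv => (hf u v huv).trans (pathDist_adj hℓ huv)) x y
  have hgen : Gen H (pathDist G ℓ) := gen_le hle hgenG
  exact (HD V H n B (fun t => TreewidthLE (H.induce (B t)) w) hG (fun t _ h => h) hB _ hd
    hgen).embedsL1 hD

end Vale.Agent.P235.K5.GX.H193
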