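import Vale.Agent.P235.K5.GX.H193.Asm
import Vale.Agent.P235.K5.GX.H43.RefM
import Vale.Agent.P235.K5.GX.H696.Full
import Vale.Agent.P235.K5.SX.H378.S2Fin
import Vale.Agent.P235.K5.SX.H452.N

set_option autoImplicit false
set_option linter.all false

/-!
# Line GX, closed: no hypothesis left
-/

namespace Vale.Agent.P235.K5.GX.H193

open SimpleGraph Vale.Agent.P235 Vale.Agent.P235.K5

theorem refMStmt : RefMStmt := fun w j =>
  ⟨max (3 + j) w, by omega, fun V _ H n B T h hT M hM => H43.refM w j V H n B T h hT M hM⟩

/-- **Line GX, closed.**  Sums over cliques with at most three vertices of pieces of treewidth at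
most `w` and of connected pieces which are exact on edges and have no minor `K_{3,m}` -/
theorem gx : FinX := finX SX.H378.s2Stmt H696.g3Full SX.H452.n refMStmt

end Vale.Agent.P235.K5.GX.H193
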